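import Vale.Agent.P015.R2.H634.Ub
import Vale.Agent.P015.R2.H825.CountD

/-!
# P015, stretched exponential complexity: the statement `ub` of `H116/Spec.lean`
-/

namespace Vale.Agent.P015.R2.H634

open Finset Vale.Agent.P015.R2.H116

theorem ub : ∃ C : ℝ, 1 ≤ C ∧ ∀ {Λ : ℝ} {Q0 Q : ℕ} {Pi0 Pi : Finset GaussianInt}
    {α : GaussianInt → GaussianInt} (_ : Lvl Λ Q0 Pi0 α) (_ : Lvl Λ Q Pi α)
    {h : ℂ → ℝ} {K : ℕ} {B : ℝ} (_ : 1 ≤ B) (_ : Reg h K B)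
    {t : ℝ} (_ : 1 ≤ t) (_ : C * t ≤ Q0) (_ : Q0 ^ 3 ≤ Q) (_ : C * (Q : ℝ) ^ 3 ≤ K)
    {M : GaussianInt} (_ : M ≠ 0) (_ : C * ‖GaussianInt.toComplex M‖ ≤ Q0),
    ∑ π ∈ Pi0, ∑ π' ∈ Pi0.filter (fun π' => π ≠ π'),
      ∑ d ∈ EM α Pi M π π', ∑ d' ∈ EM α Pi M π π',
        (if ‖xx M π π' d - xx M π π' d'‖ * (Q : ℝ) ^ 2 ≤ 2 * t then
          h (xx M π π' d) * h (xx M π π' d - xx M π π' d') else 0) ≤
      C * (B * (Q0 * Q) + B ^ 2 * t ^ 3 * Q) :=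
  ub_of H825.count_diag H825.count_off

end Vale.Agent.P015.R2.H634
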