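import Vale.Agent.P015.R2.H116.Defs

/-!
# P015, stretched exponential complexity, module ARI: arithmetic of the quadruples
-/

namespace Vale.Agent.P015.R2.H634

open Finset Vale.Agent.P015.R2.H116

theorem one_le_norm {z : GaussianInt} (hz : z ≠ 0) : 1 ≤ ‖GaussianInt.toComplex z‖ := by
  have h1 : (1 : ℤ) ≤ z.norm := by
    have := GaussianInt.norm_pos.mpr hz
    omega
  have h2 : ((z.norm : ℤ) : ℝ) = Complex.normSq (GaussianInt.toComplex z) :=
    GaussianInt.intCast_real_norm z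
  have h3 : (1 : ℝ) ≤ (z.norm : ℤ) := by exact_mod_cast h1
  rw [h2, Complex.normSq_eq_norm_sq] at h3
  nlinarith [norm_nonneg (GaussianInt.toComplex z)]

theorem norm_sq_eq (z : GaussianInt) : ‖GaussianInt.toComplex z‖ ^ 2 = ((z.norm : ℤ) : ℝ) := by
  rw [GaussianInt.intCast_real_norm z, Complex.normSq_eq_norm_sq]

theorem toC_ne_zero {π : GaussianInt} (h : Prime π) : GaussianInt.toComplex π ≠ 0 := by
  rw [Ne, GaussianInt.toComplex_eq_zero]
  exact h.ne_zero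

theorem not_dvd_of_norm {π π' : GaussianInt} (h : Prime π) (h' : Prime π')
    (hn : π.norm ≠ π'.norm) : ¬ π ∣ π' := by
  intro hd
  exact hn (Zsqrtd.norm_eq_of_associated (by norm_num)
    (h.irreducible.associated_of_dvd h'.irreducible hd))

/-- the numerator -/
noncomputable def Mn (α : GaussianInt → GaussianInt) (π π' ρ ρ' z : GaussianInt) : GaussianInt :=
  (α ρ * ρ' - α ρ' * ρ) * (π * π') - (α π * π' - α π' * π) * (ρ * ρ') - z * (π * π' * (ρ * ρ'))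

/-- the quadruple difference -/
noncomputable def XX (α : GaussianInt → GaussianInt) (π π' ρ ρ' : GaussianInt) : ℂ :=
  (th α ρ - th α π) - (th α ρ' - th α π')

theorem xx_eq (M π π' : GaussianInt) (d : GaussianInt × GaussianInt) :
    xx M π π' d = GaussianInt.toComplex M / (GaussianInt.toComplex (π * π') *
      GaussianInt.toComplex (d.1 * d.2)) := by
  rw [xx, map_mul, map_mul, mul_assoc, mul_assoc]

theorem Mn_eq {α : GaussianInt → GaussianInt} {π π' ρ ρ' : GaussianInt} (h1 : Prime π)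
    (h2 : Prime π') (h3 : Prime ρ) (h4 : Prime ρ') (z : GaussianInt) :
    GaussianInt.toComplex (Mn α π π' ρ ρ' z) = (XX α π π' ρ ρ' - GaussianInt.toComplex z) *
      (GaussianInt.toComplex π * GaussianInt.toComplex π' * GaussianInt.toComplex ρ *
        GaussianInt.toComplex ρ') := by
  have e1 := toC_ne_zero h1
  have e2 := toC_ne_zero h2
  have e3 := toC_ne_zero h3
  have e4 := toC_ne_zero h4
  simp only [Mn, XX, th, map_sub, map_mul]
  field_simp
  ring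

theorem sub_eq_xx {α : GaussianInt → GaussianInt} {π π' ρ ρ' : GaussianInt} (h1 : Prime π)
    (h2 : Prime π') (h3 : Prime ρ) (h4 : Prime ρ') (z : GaussianInt) :
    XX α π π' ρ ρ' - GaussianInt.toComplex z = xx (Mn α π π' ρ ρ' z) π π' (ρ, ρ') := by
  have e1 := toC_ne_zero h1
  have e2 := toC_ne_zero h2
  have e3 := toC_ne_zero h3
  have e4 := toC_ne_zero h4
  rw [xx, Mn_eq h1 h2 h3 h4]
  simp only
  rw [mul_div_cancel_right₀]
  exact mul_ne_zero (mul_ne_zero (mul_ne_zero e1 e2) e3) e4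

theorem Mn_ne_zero {α : GaussianInt → GaussianInt} {π π' ρ ρ' : GaussianInt} (h1 : Prime π)
    (h2 : Prime π') (h3 : Prime ρ) (h4 : Prime ρ') (n1 : ρ.norm ≠ π.norm) (n2 : ρ.norm ≠ π'.norm)
    (n3 : ρ.norm ≠ ρ'.norm) (hα : ¬ ρ ∣ α ρ) (z : GaussianInt) : Mn α π π' ρ ρ' z ≠ 0 := by
  intro h0
  have h5 : ρ ∣ α ρ * ρ' * (π * π') := by
    refine ⟨α ρ' * (π * π') + (α π * π' - α π' * π) * ρ' + z * (π * π' * ρ'), ?_⟩
    rw [Mn] at h0
    linear_combination h0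
  rcases h3.dvd_or_dvd h5 with h6 | h6
  · rcases h3.dvd_or_dvd h6 with h7 | h7
    · exact hα h7
    · exact not_dvd_of_norm h3 h4 n3 h7
  · rcases h3.dvd_or_dvd h6 with h7 | h7
    · exact not_dvd_of_norm h3 h1 n1 h7
    · exact not_dvd_of_norm h3 h2 n2 h7

/-- two frequencies with different primes are far apart modulo `ℤ[i]` -/
theorem sep_two {α : GaussianInt → GaussianInt} {ρ ρ' : GaussianInt} (h3 : Prime ρ)
    (h4 : Prime ρ') (n3 : ρ.norm ≠ ρ'.norm) (hα : ¬ ρ ∣ α ρ) (m : GaussianInt) :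
    1 ≤ ‖th α ρ - th α ρ' - GaussianInt.toComplex m‖ *
      (‖GaussianInt.toComplex ρ‖ * ‖GaussianInt.toComplex ρ'‖) := by
  have e3 := toC_ne_zero h3
  have e4 := toC_ne_zero h4
  set z : GaussianInt := α ρ * ρ' - α ρ' * ρ - m * (ρ * ρ') with hz
  have h5 : z ≠ 0 := by
    intro h0
    have h6 : ρ ∣ α ρ * ρ' := by
      refine ⟨α ρ' + m * ρ', ?_⟩
      rw [hz] at h0
      linear_combination h0
    rcases h3.dvd_or_dvd h6 with h7 | h7
    · exact hα h7
    · exact not_dvd_of_norm h3 h4 n3 h7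
  have h6 := one_le_norm h5
  have h7 : GaussianInt.toComplex z = (th α ρ - th α ρ' - GaussianInt.toComplex m) *
      (GaussianInt.toComplex ρ * GaussianInt.toComplex ρ') := by
    rw [hz]
    simp only [map_sub, map_mul, th]
    field_simp
  rw [h7, norm_mul, norm_mul] at h6
  exact h6

section Level

variable {Λ : ℝ} {Q0 Q : ℕ} {Pi0 Pi : Finset GaussianInt} {α : GaussianInt → GaussianInt}

theorem Lvl.norm_ne (h : Lvl Λ Q Pi α) {ρ ρ' : GaussianInt} (hρ : ρ ∈ Pi) (hρ' : ρ' ∈ Pi)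
    (hne : ρ ≠ ρ') : ρ.norm ≠ ρ'.norm := fun hn => hne (h.inj ρ hρ ρ' hρ' hn)

theorem Lvl.mul_le (h : Lvl Λ Q Pi α) {ρ ρ' : GaussianInt} (hρ : ρ ∈ Pi) (hρ' : ρ' ∈ Pi) :
    ‖GaussianInt.toComplex ρ‖ * ‖GaussianInt.toComplex ρ'‖ ≤ Q := by
  have h1 : ‖GaussianInt.toComplex ρ‖ ^ 2 ≤ Q := by
    rw [norm_sq_eq]; exact_mod_cast h.upper ρ hρ
  have h2 : ‖GaussianInt.toComplex ρ'‖ ^ 2 ≤ Q := by
    rw [norm_sq_eq]; exact_mod_cast h.upper ρ' hρ'
  nlinarith [sq_nonneg (‖GaussianInt.toComplex ρ‖ - ‖GaussianInt.toComplex ρ'‖)]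

theorem Lvl.le_mul (h : Lvl Λ Q Pi α) {ρ ρ' : GaussianInt} (hρ : ρ ∈ Pi) (hρ' : ρ' ∈ Pi) :
    (Q : ℝ) / 2 ≤ ‖GaussianInt.toComplex ρ‖ * ‖GaussianInt.toComplex ρ'‖ := by
  have h1 : (Q : ℝ) / 2 ≤ ‖GaussianInt.toComplex ρ‖ ^ 2 := by
    rw [norm_sq_eq]
    have := h.lower ρ hρ
    have h3 : ((Q : ℤ) : ℝ) ≤ ((2 * ρ.norm : ℤ) : ℝ) := by exact_mod_cast this
    push_cast at h3
    linarith
  have h2 : (Q : ℝ) / 2 ≤ ‖GaussianInt.toComplex ρ'‖ ^ 2 := by
    rw [norm_sq_eq]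
    have := h.lower ρ' hρ'
    have h3 : ((Q : ℤ) : ℝ) ≤ ((2 * ρ'.norm : ℤ) : ℝ) := by exact_mod_cast this
    push_cast at h3
    linarith
  have hq : (0 : ℝ) ≤ (Q : ℝ) / 2 := by positivity
  refine abs_le_of_sq_le_sq' ?_ (by positivity) |>.2
  rw [mul_pow]
  calc ((Q : ℝ) / 2) ^ 2 = (Q : ℝ) / 2 * ((Q : ℝ) / 2) := by ring
    _ ≤ _ := mul_le_mul h1 h2 hq (by positivity)

theorem norm_lt (h0 : Lvl Λ Q0 Pi0 α) (h1 : Lvl Λ Q Pi α) (hQ : 2 * Q0 < Q) {π ρ : GaussianInt}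
    (hπ : π ∈ Pi0) (hρ : ρ ∈ Pi) : ρ.norm ≠ π.norm := by
  have e1 := h0.upper π hπ
  have e2 := h1.lower ρ hρ
  intro h
  omega

theorem ari_M (h0 : Lvl Λ Q0 Pi0 α) (h1 : Lvl Λ Q Pi α) (hQ : 2 * Q0 < Q) {T : ℝ}
    (hT : 2 * T < Q0)
    {π π' ρ ρ' : GaussianInt} (hπ : π ∈ Pi0) (hπ' : π' ∈ Pi0) (hρ : ρ ∈ Pi) (hρ' : ρ' ∈ Pi)
    {z : GaussianInt}
    (hx : ‖(th α ρ - th α π) - (th α ρ' - th α π') - GaussianInt.toComplex z‖ * (Q0 * Q) ≤
      2 * T) :
    (π = π' ∧ ρ = ρ') ∨ (π ≠ π' ∧ ρ ≠ ρ' ∧ ∃ M : GaussianInt, M ≠ 0 ∧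
      ‖GaussianInt.toComplex M‖ ≤ 2 * T ∧
      (th α ρ - th α π) - (th α ρ' - th α π') - GaussianInt.toComplex z = xx M π π' (ρ, ρ')) := by
  have hQ0 : (0 : ℝ) ≤ Q0 := Nat.cast_nonneg _
  have hQ1 : (0 : ℝ) < Q := by
    have : 0 < Q := by omega
    exact_mod_cast this
  have hQQ : (Q0 : ℝ) ≤ Q := by
    have : Q0 ≤ Q := by omega
    exact_mod_cast this
  by_cases e1 : π = π'
  · by_cases e2 : ρ = ρ'
    · exact Or.inl ⟨e1, e2⟩
    · exfalso
      subst e1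
      have h2 := sep_two (α := α) (h1.prime ρ hρ) (h1.prime ρ' hρ') (Lvl.norm_ne h1 hρ hρ' e2)
        (h1.num ρ hρ) z
      have h3 : th α ρ - th α π - (th α ρ' - th α π) - GaussianInt.toComplex z
          = th α ρ - th α ρ' - GaussianInt.toComplex z := by ring
      rw [h3] at hx
      set N := ‖th α ρ - th α ρ' - GaussianInt.toComplex z‖
      have hN : 0 ≤ N := norm_nonneg _
      have h4 : N * (‖GaussianInt.toComplex ρ‖ * ‖GaussianInt.toComplex ρ'‖) ≤ N * Q :=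
        mul_le_mul_of_nonneg_left (Lvl.mul_le h1 hρ hρ') hN
      have h5 : 1 ≤ N * Q := h2.trans h4
      have h6 : (Q0 : ℝ) * 1 ≤ Q0 * (N * Q) := mul_le_mul_of_nonneg_left h5 hQ0
      nlinarith
  · by_cases e2 : ρ = ρ'
    · exfalso
      subst e2
      have h2 := sep_two (α := α) (h0.prime π hπ) (h0.prime π' hπ') (Lvl.norm_ne h0 hπ hπ' e1)
        (h0.num π hπ) (-z)
      have h3 : th α ρ - th α π - (th α ρ - th α π') - GaussianInt.toComplex z
          = -(th α π - th α π' - GaussianInt.toComplex (-z)) := by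
        rw [map_neg]; ring
      rw [h3, norm_neg] at hx
      set N := ‖th α π - th α π' - GaussianInt.toComplex (-z)‖
      have hN : 0 ≤ N := norm_nonneg _
      have h4 : N * (‖GaussianInt.toComplex π‖ * ‖GaussianInt.toComplex π'‖) ≤ N * Q0 :=
        mul_le_mul_of_nonneg_left (Lvl.mul_le h0 hπ hπ') hN
      have h5 : 1 ≤ N * Q0 := h2.trans h4
      have h6 : (Q : ℝ) * 1 ≤ Q * (N * Q0) := mul_le_mul_of_nonneg_left h5 hQ1.le
      nlinarith
    · right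
      have p1 := h0.prime π hπ
      have p2 := h0.prime π' hπ'
      have p3 := h1.prime ρ hρ
      have p4 := h1.prime ρ' hρ'
      refine ⟨e1, e2, Mn α π π' ρ ρ' z, Mn_ne_zero p1 p2 p3 p4 (norm_lt h0 h1 hQ hπ hρ)
        (norm_lt h0 h1 hQ hπ' hρ) (Lvl.norm_ne h1 hρ hρ' e2) (h1.num ρ hρ) z, ?_,
        sub_eq_xx p1 p2 p3 p4 z⟩
      rw [Mn_eq p1 p2 p3 p4 z, norm_mul]
      refine le_trans ?_ hx
      refine mul_le_mul_of_nonneg_left ?_ (norm_nonneg _)
      have h5 := Lvl.mul_le h0 hπ hπ'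
      have h6 := Lvl.mul_le h1 hρ hρ'
      rw [norm_mul, norm_mul, norm_mul, mul_assoc]
      exact mul_le_mul h5 h6 (by positivity) hQ0

/-- coprimality of the low modulus with the numerator `N₀` -/
theorem coprime_N0 (h : Lvl Λ Q0 Pi0 α) {π π' : GaussianInt} (hπ : π ∈ Pi0) (hπ' : π' ∈ Pi0)
    (hne : π ≠ π') : IsCoprime (π * π') (α π * π' - α π' * π) := by
  have p1 := h.prime π hπ
  have p2 := h.prime π' hπ'
  have hn := Lvl.norm_ne h hπ hπ' hne
  apply IsCoprime.mul_left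
  · rw [p1.irreducible.coprime_iff_not_dvd]
    intro hd
    have h1 : π ∣ α π * π' := by
      have h2 : α π * π' = (α π * π' - α π' * π) + π * α π' := by ring
      rw [h2]
      exact dvd_add hd (Dvd.intro _ rfl)
    rcases p1.dvd_or_dvd h1 with h2 | h2
    · exact h.num π hπ h2
    · exact not_dvd_of_norm p1 p2 hn h2
  · rw [p2.irreducible.coprime_iff_not_dvd]
    intro hd
    have h1 : π' ∣ α π' * π := by
      have h2 : α π' * π = π' * α π - (α π * π' - α π' * π) := by ring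
      rw [h2]
      exact dvd_sub (Dvd.intro _ rfl) hd
    rcases p2.dvd_or_dvd h1 with h2 | h2
    · exact h.num π' hπ' h2
    · exact not_dvd_of_norm p2 p1 hn.symm h2

theorem mem_EM {M π π' : GaussianInt} {d : GaussianInt × GaussianInt} :
    d ∈ EM α Pi M π π' ↔ (d.1 ∈ Pi ∧ d.2 ∈ Pi) ∧ d.1 ≠ d.2 ∧ ∃ z : GaussianInt,
      XX α π π' d.1 d.2 - GaussianInt.toComplex z = xx M π π' d := by
  simp only [EM, Finset.mem_filter, Finset.mem_product, XX]

/-- the members of `EM` satisfy the integral equation -/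
theorem EM_eq (h0 : Lvl Λ Q0 Pi0 α) (h1 : Lvl Λ Q Pi α) {M π π' : GaussianInt} (hπ : π ∈ Pi0)
    (hπ' : π' ∈ Pi0) {d : GaussianInt × GaussianInt} (hd : d ∈ EM α Pi M π π') :
    ∃ z : GaussianInt, Mn α π π' d.1 d.2 z = M := by
  obtain ⟨⟨h2, h3⟩, _, z, hz⟩ := mem_EM.mp hd
  refine ⟨z, ?_⟩
  have p1 := h0.prime π hπ
  have p2 := h0.prime π' hπ'
  have p3 := h1.prime _ h2
  have p4 := h1.prime _ h3
  apply GaussianInt.toComplex_injective
  rw [Mn_eq p1 p2 p3 p4, hz, xx, div_mul_cancel₀]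
  exact mul_ne_zero (mul_ne_zero (mul_ne_zero (toC_ne_zero p1) (toC_ne_zero p2))
    (toC_ne_zero p3)) (toC_ne_zero p4)

theorem one_class (h0 : Lvl Λ Q0 Pi0 α) (h1 : Lvl Λ Q Pi α) {M π π' : GaussianInt} (hπ : π ∈ Pi0)
    (hπ' : π' ∈ Pi0) (hne : π ≠ π') {d d' : GaussianInt × GaussianInt} (hd : d ∈ EM α Pi M π π')
    (hd' : d' ∈ EM α Pi M π π') : π * π' ∣ d.1 * d.2 - d'.1 * d'.2 := by
  obtain ⟨z, hz⟩ := EM_eq h0 h1 hπ hπ' hd
  obtain ⟨z', hz'⟩ := EM_eq h0 h1 hπ hπ' hd'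
  have h2 : π * π' ∣ (α π * π' - α π' * π) * (d.1 * d.2 - d'.1 * d'.2) := by
    refine ⟨(α d.1 * d.2 - α d.2 * d.1) - z * (d.1 * d.2)
      - ((α d'.1 * d'.2 - α d'.2 * d'.1) - z' * (d'.1 * d'.2)), ?_⟩
    simp only [Mn] at hz hz'
    linear_combination hz' - hz
  exact (coprime_N0 h0 hπ hπ' hne).dvd_of_dvd_mul_left h2

/-- equal products of two primes of distinct norms -/
theorem mul_eq_mul (h1 : Lvl Λ Q Pi α) {a b c d : GaussianInt} (ha : a ∈ Pi) (hb : b ∈ Pi)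
    (hc : c ∈ Pi) (hd : d ∈ Pi) (h2 : a ∣ c * d) (h3 : b ∣ c * d) (hab : a ≠ b) :
    (a = c ∧ b = d) ∨ (a = d ∧ b = c) := by
  have pa := h1.prime a ha
  have pb := h1.prime b hb
  have key : ∀ {x y : GaussianInt}, x ∈ Pi → y ∈ Pi → x ∣ y → x = y := by
    intro x y hx hy hxy
    by_contra hne
    exact not_dvd_of_norm (h1.prime x hx) (h1.prime y hy) (Lvl.norm_ne h1 hx hy hne) hxy
  rcases pa.dvd_or_dvd h2 with h4 | h4
  · have e1 := key ha hc h4
    rcases pb.dvd_or_dvd h3 with h5 | h5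
    · exact absurd (e1.trans (key hb hc h5).symm) hab
    · exact Or.inl ⟨e1, key hb hd h5⟩
  · have e1 := key ha hd h4
    rcases pb.dvd_or_dvd h3 with h5 | h5
    · exact Or.inr ⟨e1, key hb hc h5⟩
    · exact absurd (e1.trans (key hb hd h5).symm) hab

theorem pair_inj (h1 : Lvl Λ Q Pi α) (hQ4 : 4 < Q / 2)
    {M π π' : GaussianInt} {d d' : GaussianInt × GaussianInt} (hd : d ∈ EM α Pi M π π')
    (hd' : d' ∈ EM α Pi M π π') (hm : d.1 * d.2 = d'.1 * d'.2) : d = d' := by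
  obtain ⟨⟨a1, a2⟩, a3, z, hz⟩ := mem_EM.mp hd
  obtain ⟨⟨b1, b2⟩, b3, z', hz'⟩ := mem_EM.mp hd'
  rcases mul_eq_mul h1 a1 a2 b1 b2 (Dvd.intro _ hm) (Dvd.intro_left _ hm) a3 with e | e
  · exact Prod.ext e.1 e.2
  · exfalso
    have p1 := h1.prime _ a1
    have p2 := h1.prime _ a2
    have e3 := toC_ne_zero p1
    have e4 := toC_ne_zero p2
    have hxx : xx M π π' d = xx M π π' d' := by
      rw [xx_eq, xx_eq, hm]
    rw [← hz, ← hz', ← e.1, ← e.2] at hxx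
    have e5 : GaussianInt.toComplex (2 * (α d.1 * d.2 - α d.2 * d.1))
        = GaussianInt.toComplex ((z - z') * (d.1 * d.2)) := by
      simp only [map_mul, map_sub, map_ofNat]
      have e6 : 2 * (th α d.1 - th α d.2)
          = GaussianInt.toComplex z - GaussianInt.toComplex z' := by
        simp only [XX] at hxx
        linear_combination hxx
      rw [← e6, th, th]
      field_simp
    have e6 := GaussianInt.toComplex_injective e5
    have e7 : d.1 ∣ 2 * (α d.1 * d.2) := by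
      refine ⟨(z - z') * d.2 + 2 * α d.2, ?_⟩
      linear_combination e6
    rcases p1.dvd_or_dvd e7 with h7 | h7
    · obtain ⟨y, hy⟩ := h7
      have h8 : ((2 : GaussianInt)).norm = (d.1).norm * y.norm := by rw [hy, Zsqrtd.norm_mul]
      have h9 : ((2 : GaussianInt)).norm = 4 := by decide
      rw [h9] at h8
      have h10 : d.1.norm ∣ 4 := ⟨_, h8⟩
      have h11 := Int.le_of_dvd (by norm_num) h10
      have h12 := h1.lower _ a1
      omega
    · rcases p1.dvd_or_dvd h7 with h8 | h8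
      · exact h1.num _ a1 h8
      · exact not_dvd_of_norm p1 p2 (Lvl.norm_ne h1 a1 a2 a3) h8

end Level

end Vale.Agent.P015.R2.H634
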