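import Vale.Agent.P015.R2.H634.Ari

/-!
# P015, stretched exponential complexity, module ARI: the upper bound `ub`
-/

namespace Vale.Agent.P015.R2.H634

open Finset Vale.Agent.P015.R2.H116

/-- statement of `count_diag` -/
def CountDiag : Prop := ∀ {h : ℂ → ℝ} {K : ℕ} {B : ℝ} (_ : 1 ≤ B) (_ : Reg h K B)
    {X : ℝ} (_ : 1 ≤ X) {M : GaussianInt} (_ : M ≠ 0)
    (_ : 128 * ‖(M : ℂ)‖ ≤ X) (_ : 16 * X ^ 2 ≤ K)
    (S : Finset GaussianInt) (_ : ∀ m ∈ S, X / 4 ≤ ‖(m : ℂ)‖ ∧ ‖(m : ℂ)‖ ≤ X),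
    ∑ m ∈ S, h (M / m) ≤ 4 * B * X

/-- statement of `count_off` -/
def CountOff : Prop := ∃ C : ℝ, 1 ≤ C ∧ ∀ {h : ℂ → ℝ} {K : ℕ} {B : ℝ} (_ : 1 ≤ B)
    (_ : Reg h K B)
    {Q0 Q t : ℝ} (_ : 1 ≤ t) (_ : C * t ≤ Q0) (_ : Q0 ^ 3 ≤ Q) (_ : C * Q ^ 3 ≤ K)
    {M w : GaussianInt} (_ : M ≠ 0) (_ : C * ‖(M : ℂ)‖ ≤ Q0) (_ : w ≠ 0) (_ : ‖(w : ℂ)‖ ≤ 4 * t)
    (A : Finset GaussianInt) (_ : ∀ a ∈ A, Q0 / 2 ≤ ‖(a : ℂ)‖ ∧ ‖(a : ℂ)‖ ≤ Q0)
    (E : GaussianInt → Finset GaussianInt)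
    (_ : ∀ a ∈ A, ∀ q ∈ E a, Q / 2 ≤ ‖(q : ℂ)‖ ∧ ‖(q : ℂ)‖ ≤ Q)
    (_ : ∀ a ∈ A, ∀ q ∈ E a, ∀ q' ∈ E a, a ∣ q - q'),
    ∑ a ∈ A, ∑ q ∈ (E a).filter (fun q => q - a * w ∈ E a),
      h (M / (a * q)) * h (M * w / (q * (q - a * w))) ≤ C * B ^ 2 * t * Q

/-- the products of the pairs in `EM` -/
noncomputable def Eq (α : GaussianInt → GaussianInt) (Pi : Finset GaussianInt)
    (M : GaussianInt) (e : GaussianInt × GaussianInt) : Finset GaussianInt :=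
  (EM α Pi M e.1 e.2).image (fun d => d.1 * d.2)

/-- nonzero Gaussian integers of size at most `4 t` -/
noncomputable def Ws (t : ℝ) : Finset GaussianInt :=
  ((Icc (-(⌊4 * t⌋₊ : ℤ)) ⌊4 * t⌋₊ ×ˢ Icc (-(⌊4 * t⌋₊ : ℤ)) ⌊4 * t⌋₊).image
    (fun x : ℤ × ℤ => (⟨x.1, x.2⟩ : GaussianInt))).filter
    (fun w => w ≠ 0 ∧ (w.norm : ℝ) ≤ (4 * t) ^ 2)

theorem card_Ws {t : ℝ} (ht : 1 ≤ t) : ((Ws t).card : ℝ) ≤ 81 * t ^ 2 := by
  have h1 : (Ws t).card ≤ (2 * ⌊4 * t⌋₊ + 1) ^ 2 := by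
    refine (Finset.card_filter_le _ _).trans (Finset.card_image_le.trans ?_)
    rw [Finset.card_product, Int.card_Icc]
    have : (((⌊4 * t⌋₊ : ℤ) + 1 - -(⌊4 * t⌋₊ : ℤ)).toNat) = 2 * ⌊4 * t⌋₊ + 1 := by omega
    rw [this, sq]
  have h2 : ((Ws t).card : ℝ) ≤ (2 * (⌊4 * t⌋₊ : ℝ) + 1) ^ 2 := by exact_mod_cast h1
  have h3 : (⌊4 * t⌋₊ : ℝ) ≤ 4 * t := Nat.floor_le (by linarith)
  have h4 : (0 : ℝ) ≤ ⌊4 * t⌋₊ := Nat.cast_nonneg _
  refine h2.trans ?_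
  nlinarith

theorem mem_Ws {t : ℝ} (ht : 1 ≤ t) {w : GaussianInt} :
    w ∈ Ws t ↔ w ≠ 0 ∧ ‖GaussianInt.toComplex w‖ ≤ 4 * t := by
  have h0 : (0 : ℝ) ≤ 4 * t := by linarith
  have key : ((w.norm : ℤ) : ℝ) ≤ (4 * t) ^ 2 ↔ ‖GaussianInt.toComplex w‖ ≤ 4 * t := by
    rw [← norm_sq_eq]
    exact pow_le_pow_iff_left₀ (norm_nonneg _) h0 two_ne_zero
  rw [Ws, Finset.mem_filter, Finset.mem_image]
  constructor
  · rintro ⟨_, h1, h2⟩
    exact ⟨h1, key.mp h2⟩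
  · rintro ⟨h1, h2⟩
    refine ⟨⟨(w.re, w.im), ?_, rfl⟩, h1, key.mpr h2⟩
    have hre : |((w.re : ℤ) : ℝ)| ≤ 4 * t := by
      have h3 := Complex.abs_re_le_norm (GaussianInt.toComplex w)
      have h4 : (GaussianInt.toComplex w).re = w.re := by rw [GaussianInt.toComplex_def₂]
      rw [h4] at h3
      exact h3.trans h2
    have him : |((w.im : ℤ) : ℝ)| ≤ 4 * t := by
      have h3 := Complex.abs_im_le_norm (GaussianInt.toComplex w)
      have h4 : (GaussianInt.toComplex w).im = w.im := by rw [GaussianInt.toComplex_def₂]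
      rw [h4] at h3
      exact h3.trans h2
    have conv : ∀ a : ℤ, |(a : ℝ)| ≤ 4 * t → -(⌊4 * t⌋₊ : ℤ) ≤ a ∧ a ≤ ⌊4 * t⌋₊ := by
      intro a ha
      have h5 : ((a.natAbs : ℕ) : ℝ) ≤ 4 * t := by
        rw [Nat.cast_natAbs, Int.cast_abs]; exact ha
      have h6 := Nat.le_floor h5
      omega
    simp only [Finset.mem_product, Finset.mem_Icc]
    exact ⟨conv _ hre, conv _ him⟩

section Level

variable {Λ : ℝ} {Q0 Q : ℕ} {Pi0 Pi : Finset GaussianInt} {α : GaussianInt → GaussianInt}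

theorem Eq_norm (h1 : Lvl Λ Q Pi α) {M : GaussianInt} {e : GaussianInt × GaussianInt}
    {q : GaussianInt} (hq : q ∈ Eq α Pi M e) :
    (Q : ℝ) / 2 ≤ ‖GaussianInt.toComplex q‖ ∧ ‖GaussianInt.toComplex q‖ ≤ Q := by
  obtain ⟨d, hd, rfl⟩ := Finset.mem_image.mp hq
  obtain ⟨⟨a1, a2⟩, _⟩ := mem_EM.mp hd
  rw [map_mul, norm_mul]
  exact ⟨Lvl.le_mul h1 a1 a2, Lvl.mul_le h1 a1 a2⟩

theorem Eq_class (h0 : Lvl Λ Q0 Pi0 α) (h1 : Lvl Λ Q Pi α) {M : GaussianInt}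
    {e : GaussianInt × GaussianInt} (he1 : e.1 ∈ Pi0) (he2 : e.2 ∈ Pi0) (hne : e.1 ≠ e.2)
    {q q' : GaussianInt} (hq : q ∈ Eq α Pi M e) (hq' : q' ∈ Eq α Pi M e) :
    e.1 * e.2 ∣ q - q' := by
  obtain ⟨d, hd, rfl⟩ := Finset.mem_image.mp hq
  obtain ⟨d', hd', rfl⟩ := Finset.mem_image.mp hq'
  exact one_class h0 h1 he1 he2 hne hd hd'

/-- the double sum over `EM` for one pair of low primes -/
theorem inner_bound (h0 : Lvl Λ Q0 Pi0 α) (h1 : Lvl Λ Q Pi α) (hQ4 : 4 < Q / 2)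
    {h : ℂ → ℝ} {K : ℕ} {B : ℝ} (hreg : Reg h K B) {t : ℝ} (ht : 1 ≤ t) {M : GaussianInt}
    (hM : M ≠ 0) {e : GaussianInt × GaussianInt} (he1 : e.1 ∈ Pi0) (he2 : e.2 ∈ Pi0)
    (hne : e.1 ≠ e.2) :
    ∑ d ∈ EM α Pi M e.1 e.2, ∑ d' ∈ EM α Pi M e.1 e.2,
      (if ‖xx M e.1 e.2 d - xx M e.1 e.2 d'‖ * (Q : ℝ) ^ 2 ≤ 2 * t then
        h (xx M e.1 e.2 d) * h (xx M e.1 e.2 d - xx M e.1 e.2 d') else 0) ≤
      ∑ q ∈ Eq α Pi M e, h (GaussianInt.toComplex M / (GaussianInt.toComplex (e.1 * e.2) *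
        GaussianInt.toComplex q)) +
      ∑ w ∈ Ws t, ∑ q ∈ (Eq α Pi M e).filter (fun q => q - e.1 * e.2 * w ∈ Eq α Pi M e),
        h (GaussianInt.toComplex M / (GaussianInt.toComplex (e.1 * e.2) *
          GaussianInt.toComplex q)) *
        h (GaussianInt.toComplex M * GaussianInt.toComplex w / (GaussianInt.toComplex q *
          (GaussianInt.toComplex q - GaussianInt.toComplex (e.1 * e.2) *
            GaussianInt.toComplex w))) := by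
  obtain ⟨hn0, hn1, hev, _⟩ := hreg
  set a : GaussianInt := e.1 * e.2 with ha
  have ha0 : a ≠ 0 := mul_ne_zero (h0.prime _ he1).ne_zero (h0.prime _ he2).ne_zero
  have haC : GaussianInt.toComplex a ≠ 0 := by
    rw [Ne, GaussianInt.toComplex_eq_zero]; exact ha0
  set y : GaussianInt → ℂ := fun q => GaussianInt.toComplex M / (GaussianInt.toComplex a *
    GaussianInt.toComplex q) with hy
  set T : GaussianInt → GaussianInt → ℝ := fun q q' =>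
    if ‖y q - y q'‖ * (Q : ℝ) ^ 2 ≤ 2 * t then h (y q) * h (y q - y q') else 0 with hT
  have hxy : ∀ d, xx M e.1 e.2 d = y (d.1 * d.2) := fun d => xx_eq M e.1 e.2 d
  have hinj : Set.InjOn (fun d : GaussianInt × GaussianInt => d.1 * d.2)
      (EM α Pi M e.1 e.2 : Set (GaussianInt × GaussianInt)) := by
    intro d hd d' hd' hdd
    exact pair_inj h1 hQ4 hd hd' hdd
  have hsum : ∑ d ∈ EM α Pi M e.1 e.2, ∑ d' ∈ EM α Pi M e.1 e.2,
      (if ‖xx M e.1 e.2 d - xx M e.1 e.2 d'‖ * (Q : ℝ) ^ 2 ≤ 2 * t then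
        h (xx M e.1 e.2 d) * h (xx M e.1 e.2 d - xx M e.1 e.2 d') else 0)
      = ∑ q ∈ Eq α Pi M e, ∑ q' ∈ Eq α Pi M e, T q q' := by
    rw [Eq, Finset.sum_image hinj]
    refine Finset.sum_congr rfl (fun d _ => ?_)
    rw [Finset.sum_image hinj]
    refine Finset.sum_congr rfl (fun d' _ => ?_)
    simp only [hxy, hT]
  rw [hsum]
  have hQpos : (0 : ℝ) < Q := by
    have : 0 < Q := by omega
    exact_mod_cast this
  have hqne : ∀ q ∈ Eq α Pi M e, GaussianInt.toComplex q ≠ 0 := by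
    intro q hq hc
    have := (Eq_norm h1 hq).1
    rw [hc, norm_zero] at this
    linarith
  -- one row
  have hrow : ∀ q ∈ Eq α Pi M e, ∑ q' ∈ Eq α Pi M e, T q q' ≤ h (y q) +
      ∑ w ∈ (Ws t).filter (fun w => q - a * w ∈ Eq α Pi M e),
        h (y q) * h (GaussianInt.toComplex M * GaussianInt.toComplex w / (GaussianInt.toComplex q *
          (GaussianInt.toComplex q - GaussianInt.toComplex a * GaussianInt.toComplex w))) := by
    intro q hq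
    rw [← Finset.add_sum_erase _ _ hq]
    refine add_le_add ?_ ?_
    · simp only [hT, sub_self]
      split_ifs
      · calc h (y q) * h 0 ≤ h (y q) * 1 := mul_le_mul_of_nonneg_left (hn1 0) (hn0 _)
          _ = h (y q) := mul_one _
      · exact hn0 _
    · have hq0 := hqne q hq
      -- the values as a function of `q'`
      set G : GaussianInt → ℝ := fun q' => h (y q) * h (y q - y q') with hG
      have hGnn : ∀ q', 0 ≤ G q' := fun q' => mul_nonneg (hn0 _) (hn0 _)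
      have e1 : ∑ q' ∈ (Eq α Pi M e).erase q, T q q'
          = ∑ q' ∈ ((Eq α Pi M e).erase q).filter
            (fun q' => ‖y q - y q'‖ * (Q : ℝ) ^ 2 ≤ 2 * t), G q' := by
        rw [Finset.sum_filter]
      rw [e1]
      have e2 : ((Eq α Pi M e).erase q).filter
            (fun q' => ‖y q - y q'‖ * (Q : ℝ) ^ 2 ≤ 2 * t) ⊆
            ((Ws t).filter (fun w => q - a * w ∈ Eq α Pi M e)).image (fun w => q - a * w) := by
        intro q' hq'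
        obtain ⟨h2, h3⟩ := Finset.mem_filter.mp hq'
        obtain ⟨h4, h5⟩ := Finset.mem_erase.mp h2
        obtain ⟨w, hw⟩ := Eq_class h0 h1 he1 he2 hne hq h5
        have h6 : q' = q - a * w := by rw [ha]; linear_combination -hw
        rw [Finset.mem_image]
        refine ⟨w, ?_, h6.symm⟩
        rw [Finset.mem_filter]
        refine ⟨?_, by rw [← h6]; exact h5⟩
        rw [mem_Ws ht]
        have hw0 : w ≠ 0 := by
          rintro rfl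
          apply h4
          rw [h6, mul_zero, sub_zero]
        refine ⟨hw0, ?_⟩
        have hq'0 := hqne q' h5
        have h7 : y q - y q' = -(GaussianInt.toComplex M * GaussianInt.toComplex w /
            (GaussianInt.toComplex q * GaussianInt.toComplex q')) := by
          simp only [hy]
          have h8 : GaussianInt.toComplex q' = GaussianInt.toComplex q -
            GaussianInt.toComplex a * GaussianInt.toComplex w := by rw [h6]; simp only [map_sub, map_mul]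
          field_simp
          rw [h8]
          ring
        rw [h7, norm_neg, norm_div, norm_mul, norm_mul] at h3
        have h9 := one_le_norm hM
        obtain ⟨h10, h11⟩ := Eq_norm h1 hq
        obtain ⟨h12, h13⟩ := Eq_norm h1 h5
        have hqp : 0 < ‖GaussianInt.toComplex q‖ := by linarith
        have hqp' : 0 < ‖GaussianInt.toComplex q'‖ := by linarith
        rw [div_mul_eq_mul_div, div_le_iff₀ (mul_pos hqp hqp')] at h3
        have h14 : ‖GaussianInt.toComplex q‖ * ‖GaussianInt.toComplex q'‖ ≤ (Q : ℝ) ^ 2 := by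
          rw [sq]; exact mul_le_mul h11 h13 hqp'.le hQpos.le
        have h15 : ‖GaussianInt.toComplex M‖ * ‖GaussianInt.toComplex w‖ * (Q : ℝ) ^ 2
            ≤ 2 * t * (Q : ℝ) ^ 2 :=
          h3.trans (mul_le_mul_of_nonneg_left h14 (by linarith))
        have h16 : ‖GaussianInt.toComplex M‖ * ‖GaussianInt.toComplex w‖ ≤ 2 * t :=
          le_of_mul_le_mul_right h15 (by positivity)
        have h17 : 1 * ‖GaussianInt.toComplex w‖ ≤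
            ‖GaussianInt.toComplex M‖ * ‖GaussianInt.toComplex w‖ :=
          mul_le_mul_of_nonneg_right h9 (norm_nonneg _)
        linarith
      refine (Finset.sum_le_sum_of_subset_of_nonneg e2 (fun q' _ _ => hGnn q')).trans ?_
      rw [Finset.sum_image]
      · refine le_of_eq (Finset.sum_congr rfl (fun w hw => ?_))
        have hw2 := (Finset.mem_filter.mp hw).2
        have hq'0 := hqne _ hw2
        simp only [hG, hy]
        congr 1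
        rw [← hev]
        congr 1
        have h8 : GaussianInt.toComplex (q - a * w) = GaussianInt.toComplex q -
          GaussianInt.toComplex a * GaussianInt.toComplex w := by simp only [map_sub, map_mul]
        rw [h8] at hq'0 ⊢
        field_simp
        ring
      · intro w _ w' _ hww
        have h8 : a * w = a * w' := by
          have : q - a * w = q - a * w' := hww
          linear_combination -this
        exact mul_left_cancel₀ ha0 h8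
  refine (Finset.sum_le_sum hrow).trans ?_
  rw [Finset.sum_add_distrib]
  refine add_le_add le_rfl (le_of_eq ?_)
  simp only [Finset.sum_filter]
  rw [Finset.sum_comm]


/-- the diagonal part -/
theorem diag_T (hd : CountDiag) (h0 : Lvl Λ Q0 Pi0 α) (h1 : Lvl Λ Q Pi α) (hQ : 2 * Q0 < Q)
    {h : ℂ → ℝ} {K : ℕ} {B : ℝ} (hB : 1 ≤ B) (hreg : Reg h K B) {M : GaussianInt}
    (hM : M ≠ 0) (hX1 : (1 : ℝ) ≤ (Q0 : ℝ) * Q)
    (hMX : 128 * ‖GaussianInt.toComplex M‖ ≤ (Q0 : ℝ) * Q)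
    (hK : 16 * ((Q0 : ℝ) * Q) ^ 2 ≤ K)
    (T : Finset (GaussianInt × GaussianInt))
    (hT : ∀ e ∈ T, e.1 ∈ Pi0 ∧ e.2 ∈ Pi0 ∧ e.1 ≠ e.2)
    (hTs : ∀ e ∈ T, ∀ e' ∈ T, ¬ (e.1 = e'.2 ∧ e.2 = e'.1)) :
    ∑ e ∈ T, ∑ q ∈ Eq α Pi M e, h (GaussianInt.toComplex M /
      (GaussianInt.toComplex (e.1 * e.2) * GaussianInt.toComplex q)) ≤ 4 * B * (Q0 * Q) := by
  classical
  set f : (Σ _ : GaussianInt × GaussianInt, GaussianInt) → GaussianInt :=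
    fun x => x.1.1 * x.1.2 * x.2 with hf
  have hinj : Set.InjOn f (T.sigma (fun e => Eq α Pi M e) :
      Set (Σ _ : GaussianInt × GaussianInt, GaussianInt)) := by
    rintro ⟨e, q⟩ hx ⟨e', q'⟩ hx' hff
    rw [Finset.mem_coe, Finset.mem_sigma] at hx hx'
    obtain ⟨he, hq⟩ := hx
    obtain ⟨he', hq'⟩ := hx'
    simp only at he hq he' hq'
    simp only [hf] at hff
    obtain ⟨a1, a2, a3⟩ := hT e he
    obtain ⟨b1, b2, b3⟩ := hT e' he'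
    have key : ∀ x ∈ Pi0, x ∣ e'.1 * e'.2 * q' → x ∣ e'.1 * e'.2 := by
      intro x hx hxd
      have px := h0.prime x hx
      rcases px.dvd_or_dvd hxd with h2 | h2
      · exact h2
      · exfalso
        obtain ⟨d, hd', rfl⟩ := Finset.mem_image.mp hq'
        obtain ⟨⟨c1, c2⟩, _⟩ := mem_EM.mp hd'
        rcases px.dvd_or_dvd h2 with h3 | h3
        · exact not_dvd_of_norm px (h1.prime _ c1) (norm_lt h0 h1 hQ hx c1).symm h3
        · exact not_dvd_of_norm px (h1.prime _ c2) (norm_lt h0 h1 hQ hx c2).symm h3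
    have k1 := key e.1 a1 ⟨e.2 * q, by rw [← hff]; ring⟩
    have k2 := key e.2 a2 ⟨e.1 * q, by rw [← hff]; ring⟩
    rcases mul_eq_mul h0 a1 a2 b1 b2 k1 k2 a3 with h2 | h2
    · have he2 : e = e' := Prod.ext h2.1 h2.2
      subst he2
      have h4 : e.1 * e.2 ≠ 0 := mul_ne_zero (h0.prime _ a1).ne_zero (h0.prime _ a2).ne_zero
      have h5 := mul_left_cancel₀ h4 hff
      rw [h5]
    · exact absurd h2 (hTs e he e' he')
  have hS := hd hB hreg hX1 hM hMX hK ((T.sigma (fun e => Eq α Pi M e)).image f) (by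
    intro m hm
    obtain ⟨⟨e, q⟩, hx, rfl⟩ := Finset.mem_image.mp hm
    rw [Finset.mem_sigma] at hx
    obtain ⟨he, hq⟩ := hx
    simp only at he hq
    obtain ⟨a1, a2, _⟩ := hT e he
    obtain ⟨b1, b2⟩ := Eq_norm h1 hq
    have c1 := Lvl.le_mul h0 a1 a2
    have c2 := Lvl.mul_le h0 a1 a2
    simp only [hf]
    rw [map_mul, map_mul, norm_mul, norm_mul]
    have q0 : (0 : ℝ) ≤ Q0 := Nat.cast_nonneg _
    have q1 : (0 : ℝ) ≤ Q := Nat.cast_nonneg _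
    constructor
    · calc (Q0 : ℝ) * Q / 4 = (Q0 : ℝ) / 2 * ((Q : ℝ) / 2) := by ring
        _ ≤ _ := mul_le_mul c1 b1 (by positivity) (by positivity)
    · exact mul_le_mul c2 b2 (norm_nonneg _) q0)
  rw [Finset.sum_image hinj, Finset.sum_sigma] at hS
  refine le_trans (le_of_eq ?_) hS
  refine Finset.sum_congr rfl (fun e _ => Finset.sum_congr rfl (fun q _ => ?_))
  simp only [hf]
  rw [map_mul (GaussianInt.toComplex) (e.1 * e.2) q]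

/-- the off-diagonal part for one `w` -/
theorem off_T {C : ℝ} (ho : ∀ {h : ℂ → ℝ} {K : ℕ} {B : ℝ} (_ : 1 ≤ B)
    (_ : Reg h K B)
    {Q0 Q t : ℝ} (_ : 1 ≤ t) (_ : C * t ≤ Q0) (_ : Q0 ^ 3 ≤ Q) (_ : C * Q ^ 3 ≤ K)
    {M w : GaussianInt} (_ : M ≠ 0) (_ : C * ‖(M : ℂ)‖ ≤ Q0) (_ : w ≠ 0) (_ : ‖(w : ℂ)‖ ≤ 4 * t)
    (A : Finset GaussianInt) (_ : ∀ a ∈ A, Q0 / 2 ≤ ‖(a : ℂ)‖ ∧ ‖(a : ℂ)‖ ≤ Q0)
    (E : GaussianInt → Finset GaussianInt)
    (_ : ∀ a ∈ A, ∀ q ∈ E a, Q / 2 ≤ ‖(q : ℂ)‖ ∧ ‖(q : ℂ)‖ ≤ Q)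
    (_ : ∀ a ∈ A, ∀ q ∈ E a, ∀ q' ∈ E a, a ∣ q - q'),
    ∑ a ∈ A, ∑ q ∈ (E a).filter (fun q => q - a * w ∈ E a),
      h (M / (a * q)) * h (M * w / (q * (q - a * w))) ≤ C * B ^ 2 * t * Q)
    (h0 : Lvl Λ Q0 Pi0 α) (h1 : Lvl Λ Q Pi α)
    {h : ℂ → ℝ} {K : ℕ} {B : ℝ} (hB : 1 ≤ B) (hreg : Reg h K B) {t : ℝ} (ht : 1 ≤ t)
    (hCt : C * t ≤ Q0) (hQ : (Q0 : ℝ) ^ 3 ≤ Q) (hK : C * (Q : ℝ) ^ 3 ≤ K) {M : GaussianInt}
    (hM : M ≠ 0) (hMX : C * ‖GaussianInt.toComplex M‖ ≤ (Q0 : ℝ))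
    (T : Finset (GaussianInt × GaussianInt))
    (hT : ∀ e ∈ T, e.1 ∈ Pi0 ∧ e.2 ∈ Pi0 ∧ e.1 ≠ e.2)
    (hTs : ∀ e ∈ T, ∀ e' ∈ T, ¬ (e.1 = e'.2 ∧ e.2 = e'.1)) {w : GaussianInt} (hw : w ∈ Ws t) :
    ∑ e ∈ T, ∑ q ∈ (Eq α Pi M e).filter (fun q => q - e.1 * e.2 * w ∈ Eq α Pi M e),
        h (GaussianInt.toComplex M / (GaussianInt.toComplex (e.1 * e.2) *
          GaussianInt.toComplex q)) *
        h (GaussianInt.toComplex M * GaussianInt.toComplex w / (GaussianInt.toComplex q *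
          (GaussianInt.toComplex q - GaussianInt.toComplex (e.1 * e.2) *
            GaussianInt.toComplex w))) ≤ C * B ^ 2 * t * Q := by
  classical
  obtain ⟨hw0, hwt⟩ := (mem_Ws ht).mp hw
  have hinj : Set.InjOn (fun e : GaussianInt × GaussianInt => e.1 * e.2)
      (T : Set (GaussianInt × GaussianInt)) := by
    intro e he e' he' hee
    obtain ⟨a1, a2, a3⟩ := hT e he
    obtain ⟨b1, b2, b3⟩ := hT e' he'
    simp only at hee
    rcases mul_eq_mul h0 a1 a2 b1 b2 (Dvd.intro _ hee) (Dvd.intro_left _ hee) a3 with h2 | h2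
    · exact Prod.ext h2.1 h2.2
    · exact absurd h2 (hTs e he e' he')
  set E : GaussianInt → Finset GaussianInt := fun a =>
    (T.filter (fun e => e.1 * e.2 = a)).biUnion (fun e => Eq α Pi M e) with hE
  have hEe : ∀ e ∈ T, E (e.1 * e.2) = Eq α Pi M e := by
    intro e he
    ext q
    simp only [hE, Finset.mem_biUnion, Finset.mem_filter]
    constructor
    · rintro ⟨e', ⟨he', h2⟩, h3⟩
      rwa [← hinj he' he h2]
    · intro h3
      exact ⟨e, ⟨he, rfl⟩, h3⟩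
  have key := ho hB hreg ht hCt hQ hK hM hMX hw0 hwt (T.image (fun e => e.1 * e.2)) (by
    intro a ha
    obtain ⟨e, he, rfl⟩ := Finset.mem_image.mp ha
    obtain ⟨a1, a2, _⟩ := hT e he
    rw [map_mul, norm_mul]
    exact ⟨Lvl.le_mul h0 a1 a2, Lvl.mul_le h0 a1 a2⟩) E (by
    intro a ha q hq
    obtain ⟨e, he, rfl⟩ := Finset.mem_image.mp ha
    rw [hEe e he] at hq
    exact Eq_norm h1 hq) (by
    intro a ha q hq q' hq'
    obtain ⟨e, he, rfl⟩ := Finset.mem_image.mp ha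
    obtain ⟨a1, a2, a3⟩ := hT e he
    rw [hEe e he] at hq hq'
    exact Eq_class h0 h1 a1 a2 a3 hq hq')
  rw [Finset.sum_image hinj] at key
  refine le_trans (le_of_eq ?_) key
  refine Finset.sum_congr rfl (fun e he => ?_)
  rw [hEe e he]

/-- the sum over an asymmetric set of pairs -/
theorem sum_T (hd : CountDiag) {C : ℝ} (ho : ∀ {h : ℂ → ℝ} {K : ℕ} {B : ℝ} (_ : 1 ≤ B)
    (_ : Reg h K B)
    {Q0 Q t : ℝ} (_ : 1 ≤ t) (_ : C * t ≤ Q0) (_ : Q0 ^ 3 ≤ Q) (_ : C * Q ^ 3 ≤ K)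
    {M w : GaussianInt} (_ : M ≠ 0) (_ : C * ‖(M : ℂ)‖ ≤ Q0) (_ : w ≠ 0) (_ : ‖(w : ℂ)‖ ≤ 4 * t)
    (A : Finset GaussianInt) (_ : ∀ a ∈ A, Q0 / 2 ≤ ‖(a : ℂ)‖ ∧ ‖(a : ℂ)‖ ≤ Q0)
    (E : GaussianInt → Finset GaussianInt)
    (_ : ∀ a ∈ A, ∀ q ∈ E a, Q / 2 ≤ ‖(q : ℂ)‖ ∧ ‖(q : ℂ)‖ ≤ Q)
    (_ : ∀ a ∈ A, ∀ q ∈ E a, ∀ q' ∈ E a, a ∣ q - q'),
    ∑ a ∈ A, ∑ q ∈ (E a).filter (fun q => q - a * w ∈ E a),
      h (M / (a * q)) * h (M * w / (q * (q - a * w))) ≤ C * B ^ 2 * t * Q) (hC : 0 ≤ C)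
    (h0 : Lvl Λ Q0 Pi0 α) (h1 : Lvl Λ Q Pi α) (hQQ : 2 * Q0 < Q) (hQ4 : 4 < Q / 2)
    {h : ℂ → ℝ} {K : ℕ} {B : ℝ} (hB : 1 ≤ B) (hreg : Reg h K B) {t : ℝ} (ht : 1 ≤ t)
    (hCt : C * t ≤ Q0) (hQ : (Q0 : ℝ) ^ 3 ≤ Q) (hK : C * (Q : ℝ) ^ 3 ≤ K) {M : GaussianInt}
    (hM : M ≠ 0) (hMX : C * ‖GaussianInt.toComplex M‖ ≤ (Q0 : ℝ))
    (hX1 : (1 : ℝ) ≤ (Q0 : ℝ) * Q)
    (hMX' : 128 * ‖GaussianInt.toComplex M‖ ≤ (Q0 : ℝ) * Q)
    (hK' : 16 * ((Q0 : ℝ) * Q) ^ 2 ≤ K)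
    (T : Finset (GaussianInt × GaussianInt))
    (hT : ∀ e ∈ T, e.1 ∈ Pi0 ∧ e.2 ∈ Pi0 ∧ e.1 ≠ e.2)
    (hTs : ∀ e ∈ T, ∀ e' ∈ T, ¬ (e.1 = e'.2 ∧ e.2 = e'.1)) :
    ∑ e ∈ T, ∑ d ∈ EM α Pi M e.1 e.2, ∑ d' ∈ EM α Pi M e.1 e.2,
      (if ‖xx M e.1 e.2 d - xx M e.1 e.2 d'‖ * (Q : ℝ) ^ 2 ≤ 2 * t then
        h (xx M e.1 e.2 d) * h (xx M e.1 e.2 d - xx M e.1 e.2 d') else 0) ≤
      4 * B * (Q0 * Q) + 81 * C * B ^ 2 * t ^ 3 * Q := by
  refine (Finset.sum_le_sum (fun e he => inner_bound h0 h1 hQ4 hreg ht hM (hT e he).1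
    (hT e he).2.1 (hT e he).2.2)).trans ?_
  rw [Finset.sum_add_distrib]
  refine add_le_add (diag_T hd h0 h1 hQQ hB hreg hM hX1 hMX' hK' T hT hTs) ?_
  rw [Finset.sum_comm]
  refine (Finset.sum_le_sum (fun w hw => off_T ho h0 h1 hB hreg ht hCt hQ hK hM hMX T hT hTs
    hw)).trans ?_
  rw [Finset.sum_const, nsmul_eq_mul]
  have h2 := card_Ws ht
  have h3 : 0 ≤ C * B ^ 2 * t * (Q : ℝ) := by positivity
  calc ((Ws t).card : ℝ) * (C * B ^ 2 * t * Q) ≤ 81 * t ^ 2 * (C * B ^ 2 * t * Q) :=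
        mul_le_mul_of_nonneg_right h2 h3
    _ = 81 * C * B ^ 2 * t ^ 3 * Q := by ring

end Level

theorem ub_of (hd : CountDiag) (ho : CountOff) :
    ∃ C : ℝ, 1 ≤ C ∧ ∀ {Λ : ℝ} {Q0 Q : ℕ} {Pi0 Pi : Finset GaussianInt}
      {α : GaussianInt → GaussianInt} (_ : Lvl Λ Q0 Pi0 α) (_ : Lvl Λ Q Pi α)
      {h : ℂ → ℝ} {K : ℕ} {B : ℝ} (_ : 1 ≤ B) (_ : Reg h K B)
      {t : ℝ} (_ : 1 ≤ t) (_ : C * t ≤ Q0) (_ : Q0 ^ 3 ≤ Q) (_ : C * (Q : ℝ) ^ 3 ≤ K)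
      {M : GaussianInt} (_ : M ≠ 0) (_ : C * ‖GaussianInt.toComplex M‖ ≤ Q0),
      ∑ π ∈ Pi0, ∑ π' ∈ Pi0.filter (fun π' => π ≠ π'),
        ∑ d ∈ EM α Pi M π π', ∑ d' ∈ EM α Pi M π π',
          (if ‖xx M π π' d - xx M π π' d'‖ * (Q : ℝ) ^ 2 ≤ 2 * t then
            h (xx M π π' d) * h (xx M π π' d - xx M π π' d') else 0) ≤
        C * (B * (Q0 * Q) + B ^ 2 * t ^ 3 * Q) := by
  obtain ⟨C, hC1, ho⟩ := ho
  refine ⟨162 * C + 128, by linarith, ?_⟩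
  intro Λ Q0 Q Pi0 Pi α h0 h1 h K B hB hreg t ht hCt hQ3 hK M hM hMX
  have hM1 := one_le_norm hM
  have hCt' : C * t ≤ Q0 := by nlinarith
  have hMX1 : C * ‖GaussianInt.toComplex M‖ ≤ Q0 := by nlinarith
  have hMX2 : 128 * ‖GaussianInt.toComplex M‖ ≤ Q0 := by nlinarith
  have hQ0r : (128 : ℝ) ≤ Q0 := by nlinarith
  have hQ0 : 128 ≤ Q0 := by exact_mod_cast hQ0r
  have hQQ : 2 * Q0 < Q := by nlinarith [Nat.pow_le_pow_left hQ0 2]
  have hQ4 : 4 < Q / 2 := by omega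
  have hQ3r : (Q0 : ℝ) ^ 3 ≤ Q := by exact_mod_cast hQ3
  have hQr : (1 : ℝ) ≤ Q := by
    have : 1 ≤ Q := by omega
    exact_mod_cast this
  have hKC : C * (Q : ℝ) ^ 3 ≤ K := by
    have : (0 : ℝ) ≤ (Q : ℝ) ^ 3 := by positivity
    nlinarith
  have hX1 : (1 : ℝ) ≤ (Q0 : ℝ) * Q := by nlinarith
  have hMX' : 128 * ‖GaussianInt.toComplex M‖ ≤ (Q0 : ℝ) * Q := by nlinarith
  have hK' : 16 * ((Q0 : ℝ) * Q) ^ 2 ≤ K := by
    have h2 : (Q0 : ℝ) ^ 2 ≤ Q := by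
      calc (Q0 : ℝ) ^ 2 ≤ (Q0 : ℝ) ^ 3 := pow_le_pow_right₀ (by linarith) (by norm_num)
        _ ≤ Q := hQ3r
    calc 16 * ((Q0 : ℝ) * Q) ^ 2 = 16 * (Q0 : ℝ) ^ 2 * Q ^ 2 := by ring
      _ ≤ 16 * (Q : ℝ) * Q ^ 2 := by gcongr
      _ = 16 * (Q : ℝ) ^ 3 := by ring
      _ ≤ (162 * C + 128) * (Q : ℝ) ^ 3 := by
        have : (0 : ℝ) ≤ (Q : ℝ) ^ 3 := by positivity
        nlinarith
      _ ≤ K := hK
  set F : GaussianInt × GaussianInt → ℝ := fun e =>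
    ∑ d ∈ EM α Pi M e.1 e.2, ∑ d' ∈ EM α Pi M e.1 e.2,
      (if ‖xx M e.1 e.2 d - xx M e.1 e.2 d'‖ * (Q : ℝ) ^ 2 ≤ 2 * t then
        h (xx M e.1 e.2 d) * h (xx M e.1 e.2 d - xx M e.1 e.2 d') else 0) with hF
  have e1 : ∑ π ∈ Pi0, ∑ π' ∈ Pi0.filter (fun π' => π ≠ π'), F (π, π')
      = ∑ e ∈ (Pi0 ×ˢ Pi0).filter (fun e => e.1.norm < e.2.norm), F e
        + ∑ e ∈ (Pi0 ×ˢ Pi0).filter (fun e => e.2.norm < e.1.norm), F e := by
    rw [Finset.sum_filter, Finset.sum_filter, ← Finset.sum_add_distrib, Finset.sum_product]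
    refine Finset.sum_congr rfl (fun π hπ => ?_)
    rw [Finset.sum_filter]
    refine Finset.sum_congr rfl (fun π' hπ' => ?_)
    by_cases hpp : π = π'
    · subst hpp
      simp
    · have hn := Lvl.norm_ne h0 hπ hπ' hpp
      rcases lt_or_gt_of_ne hn with h2 | h2
      · simp [hpp, h2, h2.le]
      · simp [hpp, h2, h2.le]
  have b1 := sum_T hd ho (by linarith) h0 h1 hQQ hQ4 hB hreg ht hCt' hQ3r hKC hM hMX1 hX1 hMX' hK'
    ((Pi0 ×ˢ Pi0).filter (fun e => e.1.norm < e.2.norm)) (by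
      intro e he
      obtain ⟨h2, h3⟩ := Finset.mem_filter.mp he
      obtain ⟨h4, h5⟩ := Finset.mem_product.mp h2
      exact ⟨h4, h5, fun hee => by rw [hee] at h3; exact lt_irrefl _ h3⟩) (by
      rintro e he e' he' ⟨h2, h3⟩
      have h4 := (Finset.mem_filter.mp he).2
      have h5 := (Finset.mem_filter.mp he').2
      rw [h2, h3] at h4
      exact lt_asymm h4 h5)
  have b2 := sum_T hd ho (by linarith) h0 h1 hQQ hQ4 hB hreg ht hCt' hQ3r hKC hM hMX1 hX1 hMX' hK'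
    ((Pi0 ×ˢ Pi0).filter (fun e => e.2.norm < e.1.norm)) (by
      intro e he
      obtain ⟨h2, h3⟩ := Finset.mem_filter.mp he
      obtain ⟨h4, h5⟩ := Finset.mem_product.mp h2
      exact ⟨h4, h5, fun hee => by rw [hee] at h3; exact lt_irrefl _ h3⟩) (by
      rintro e he e' he' ⟨h2, h3⟩
      have h4 := (Finset.mem_filter.mp he).2
      have h5 := (Finset.mem_filter.mp he').2
      rw [h2, h3] at h4
      exact lt_asymm h4 h5)
  refine (le_of_eq e1).trans ((add_le_add b1 b2).trans ?_)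
  have p1 : 0 ≤ B * ((Q0 : ℝ) * Q) := by positivity
  have p2 : 0 ≤ B ^ 2 * t ^ 3 * (Q : ℝ) := by positivity
  nlinarith [mul_nonneg (by linarith : (0 : ℝ) ≤ C) p1, mul_nonneg (by linarith : (0 : ℝ) ≤ C) p2]

end Vale.Agent.P015.R2.H634
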